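import Vale.Agent.Lib.P004.Bounds

namespace Vale.Agent.Lib.P004

open ArithmeticFunction Filter Topology

open Classical

/-- If a square-invariant property has relative density `δ` in the class `r mod 4` among all
integers, then among the squarefree integers of the class the count of the property differs from
`δ` times the count of the class by `o(N)`. -/
theorem err_bound (P : ℤ → Prop) [DecidablePred P]
    (hP : ∀ m d : ℤ, m ≠ 0 → d ≠ 0 → (P (m ^ 2 * d) ↔ P d))
    (r : ℤ) (hr : r = 1 ∨ r = 2 ∨ r = 3) (δ : ℝ)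
    (h : Tendsto (fun N : ℕ => (cnt (fun d => d % 4 = r ∧ P d) N : ℝ)
      / (cnt (fun d => d % 4 = r) N : ℝ)) atTop (𝓝 δ))
    (ε : ℝ) (hε : 0 < ε) :
    ∀ᶠ N : ℕ in atTop,
      |(cnt (fun d => d % 4 = r ∧ Squarefree d ∧ P d) N : ℝ)
        - δ * (cnt (fun d => d % 4 = r ∧ Squarefree d) N : ℝ)| ≤ ε * N := by
  set I : ℕ → ℝ := fun n => (cnt (fun d => d % 4 = r ∧ P d) n : ℝ) with hI
  set T : ℕ → ℝ := fun n => (cnt (fun d => d % 4 = r) n : ℝ) with hT
  set w : ℕ → ℝ := fun n => I n - δ * T n with hw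
  have hIT : ∀ n, I n ≤ T n := fun n => by
    simp only [hI, hT]; exact_mod_cast cnt_and_le P r n
  have hTn : ∀ n, T n ≤ n := fun n => by
    simp only [hT]; exact_mod_cast cnt_class_le r hr n
  have hT0 : ∀ n, 0 ≤ T n := fun n => Nat.cast_nonneg _
  have hI0 : ∀ n, 0 ≤ I n := fun n => Nat.cast_nonneg _
  have hw0 : w 0 = 0 := by
    have h1 : T 0 = 0 := le_antisymm (by simpa using hTn 0) (hT0 0)
    have h2 : I 0 = 0 := le_antisymm (by rw [← h1]; exact hIT 0) (hI0 0)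
    simp only [hw, h1, h2]; ring
  have hcrude : ∀ n : ℕ, |w n| ≤ (1 + |δ|) * n := by
    intro n
    have h1 : |w n| ≤ |I n| + |δ * T n| := abs_sub _ _
    rw [abs_mul, abs_of_nonneg (hI0 n), abs_of_nonneg (hT0 n)] at h1
    have h2 : |δ| * T n ≤ |δ| * n := mul_le_mul_of_nonneg_left (hTn n) (abs_nonneg δ)
    have h3 : I n ≤ n := (hIT n).trans (hTn n)
    linarith
  obtain ⟨n0, hn0⟩ := Metric.tendsto_atTop.mp h (ε / 4) (by positivity)
  have hfine : ∀ n : ℕ, n0 ≤ n → |w n| ≤ ε / 4 * n := by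
    intro n hn
    have hd := hn0 n hn
    rw [Real.dist_eq] at hd
    rcases (hT0 n).eq_or_lt with hz | hpos
    · have h2 : I n = 0 := le_antisymm (by rw [hz]; exact hIT n) (hI0 n)
      simp only [hw, ← hz, h2]
      simp only [mul_zero, sub_zero, abs_zero]
      positivity
    · have h1 : w n = (I n / T n - δ) * T n := by
        simp only [hw]; field_simp
      rw [h1, abs_mul, abs_of_pos hpos]
      have h3 : |I n / T n - δ| * T n ≤ ε / 4 * T n :=
        mul_le_mul_of_nonneg_right hd.le hpos.le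
      have h4 : ε / 4 * T n ≤ ε / 4 * n := mul_le_mul_of_nonneg_left (hTn n) (by positivity)
      linarith
  set C : ℝ := (1 + |δ|) * n0 with hC
  have hCnn : 0 ≤ C := by positivity
  -- the identity
  have hid : ∀ N : ℕ, (cnt (fun d => d % 4 = r ∧ Squarefree d ∧ P d) N : ℝ)
      - δ * (cnt (fun d => d % 4 = r ∧ Squarefree d) N : ℝ)
      = ∑ m ∈ Finset.Icc 1 N, (muOdd m : ℝ) * w (N / m ^ 2) := by
    intro N
    rw [cnt_squarefree_eq_real P hP r hr N, cnt_squarefree_eq_real_true r hr N, Finset.mul_sum,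
      ← Finset.sum_sub_distrib]
    apply Finset.sum_congr rfl
    intro m _
    simp only [hw, hI, hT]
    ring
  have hterm : ∀ N : ℕ, ∀ m ∈ Finset.Icc 1 N, |(muOdd m : ℝ) * w (N / m ^ 2)|
      ≤ ε / 4 * N * ((m : ℝ) ^ 2)⁻¹ + C * (if m ^ 2 ≤ N then (1 : ℝ) else 0) := by
    intro N m hm
    rw [Finset.mem_Icc] at hm
    have hmpos : (0 : ℝ) < (m : ℝ) ^ 2 := by
      have : (0 : ℝ) < (m : ℝ) := by exact_mod_cast hm.1
      positivity
    have h1 : |(muOdd m : ℝ) * w (N / m ^ 2)| ≤ |w (N / m ^ 2)| := by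
      rw [abs_mul]
      have := abs_muOdd_real_le_one m
      have h0 := abs_nonneg (w (N / m ^ 2))
      nlinarith
    have hdiv : ((N / m ^ 2 : ℕ) : ℝ) ≤ (N : ℝ) * ((m : ℝ) ^ 2)⁻¹ := by
      have := Nat.cast_div_le (α := ℝ) (m := N) (n := m ^ 2)
      rw [div_eq_mul_inv] at this
      simpa using this
    have hA : (0 : ℝ) ≤ ε / 4 * N * ((m : ℝ) ^ 2)⁻¹ := by positivity
    have hB : (0 : ℝ) ≤ C * (if m ^ 2 ≤ N then (1 : ℝ) else 0) := by
      split_ifs <;> simp [hCnn]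
    rcases Nat.lt_or_ge (N / m ^ 2) n0 with hlt | hge
    · by_cases hmN : m ^ 2 ≤ N
      · rw [if_pos hmN]
        have h2 := hcrude (N / m ^ 2)
        have h3 : ((N / m ^ 2 : ℕ) : ℝ) ≤ n0 := by exact_mod_cast hlt.le
        have h4 : (1 + |δ|) * ((N / m ^ 2 : ℕ) : ℝ) ≤ C := by
          simp only [hC]
          exact mul_le_mul_of_nonneg_left h3 (by positivity)
        linarith
      · have h0 : N / m ^ 2 = 0 := Nat.div_eq_of_lt (not_le.mp hmN)
        have hz : w (N / m ^ 2) = 0 := by rw [h0, hw0]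
        rw [hz]
        simp only [mul_zero, abs_zero]
        linarith
    · have h2 := hfine (N / m ^ 2) hge
      have h3 : ε / 4 * ((N / m ^ 2 : ℕ) : ℝ) ≤ ε / 4 * ((N : ℝ) * ((m : ℝ) ^ 2)⁻¹) :=
        mul_le_mul_of_nonneg_left hdiv (by positivity)
      have h4 : ε / 4 * ((N : ℝ) * ((m : ℝ) ^ 2)⁻¹) = ε / 4 * N * ((m : ℝ) ^ 2)⁻¹ := by ring
      linarith
  have hmain : ∀ N : ℕ, |(cnt (fun d => d % 4 = r ∧ Squarefree d ∧ P d) N : ℝ)
      - δ * (cnt (fun d => d % 4 = r ∧ Squarefree d) N : ℝ)|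
      ≤ ε / 2 * N + C * Real.sqrt N := by
    intro N
    rw [hid N]
    calc |∑ m ∈ Finset.Icc 1 N, (muOdd m : ℝ) * w (N / m ^ 2)|
        ≤ ∑ m ∈ Finset.Icc 1 N, |(muOdd m : ℝ) * w (N / m ^ 2)| := Finset.abs_sum_le_sum_abs _ _
      _ ≤ ∑ m ∈ Finset.Icc 1 N, (ε / 4 * N * ((m : ℝ) ^ 2)⁻¹
            + C * (if m ^ 2 ≤ N then (1 : ℝ) else 0)) := Finset.sum_le_sum (hterm N)
      _ = ε / 4 * N * ∑ m ∈ Finset.Icc 1 N, ((m : ℝ) ^ 2)⁻¹
            + C * ∑ m ∈ Finset.Icc 1 N, (if m ^ 2 ≤ N then (1 : ℝ) else 0) := by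
          rw [Finset.sum_add_distrib, ← Finset.mul_sum, ← Finset.mul_sum]
      _ ≤ ε / 4 * N * 2 + C * Real.sqrt N := by
          have h1 := sum_Icc_inv_sq_le_two N
          have h2 := sum_indicator_sq_le N
          have h3 : (0 : ℝ) ≤ ε / 4 * N := by positivity
          have h4 := mul_le_mul_of_nonneg_left h1 h3
          have h5 := mul_le_mul_of_nonneg_left h2 hCnn
          linarith
      _ = ε / 2 * N + C * Real.sqrt N := by ring
  -- eventually the square-root term is small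
  have hev : ∀ᶠ N : ℕ in atTop, C * Real.sqrt N ≤ ε / 2 * N := by
    rw [eventually_atTop]
    refine ⟨Nat.ceil ((2 * C / ε) ^ 2) + 1, fun N hN => ?_⟩
    have h1 : (2 * C / ε) ^ 2 ≤ (N : ℝ) := by
      have := Nat.le_ceil ((2 * C / ε) ^ 2)
      have h2 : ((Nat.ceil ((2 * C / ε) ^ 2) : ℕ) : ℝ) ≤ N := by exact_mod_cast (by omega)
      linarith
    have h2 : 2 * C / ε ≤ Real.sqrt N := Real.le_sqrt_of_sq_le h1
    have h3 : Real.sqrt N * Real.sqrt N = N := Real.mul_self_sqrt (Nat.cast_nonneg N)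
    have h4 : 0 ≤ Real.sqrt N := Real.sqrt_nonneg _
    have h5 : 2 * C ≤ ε * Real.sqrt N := by
      rw [div_le_iff₀ hε] at h2
      linarith
    nlinarith
  filter_upwards [hev] with N hN
  have := hmain N
  linarith

end Vale.Agent.Lib.P004
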