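import Vale.Agent.Lib.P004.Defs
import Vale.Agent.Lib.P004.Error

namespace Vale.Agent.Lib.P004

open ArithmeticFunction Filter Topology

open Classical

lemma mem_fundDiscs (D : ℤ) (X : ℕ) :
    D ∈ fundDiscs X ↔ (-(X : ℤ) ≤ D ∧ D ≤ (X : ℤ)) ∧ IsFundDisc D ∧ D ≠ 1 := by
  unfold fundDiscs
  rw [Finset.mem_filter, Finset.mem_Icc]

/-- Decomposition of the fundamental discriminants with a square-invariant property. -/
lemma fundDiscs_filter_eq (R : ℤ → Prop) [DecidablePred R]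
    (hR : ∀ m d : ℤ, m ≠ 0 → d ≠ 0 → (R (m ^ 2 * d) ↔ R d)) (X : ℕ) :
    (fundDiscs X).filter R
      = (((Finset.Icc (-(X : ℤ)) (X : ℤ)).filter
            (fun d => d % 4 = 1 ∧ Squarefree d ∧ R d)).erase 1)
        ∪ (((Finset.Icc (-((X / 4 : ℕ) : ℤ)) ((X / 4 : ℕ) : ℤ)).filter
            (fun d => d % 4 = 2 ∧ Squarefree d ∧ R d)).image (fun m => 4 * m)
          ∪ ((Finset.Icc (-((X / 4 : ℕ) : ℤ)) ((X / 4 : ℕ) : ℤ)).filter
            (fun d => d % 4 = 3 ∧ Squarefree d ∧ R d)).image (fun m => 4 * m)) := by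
  have h4 : ∀ m : ℤ, m ≠ 0 → (R (4 * m) ↔ R m) := by
    intro m hm
    have := hR 2 m (by norm_num) hm
    norm_num at this
    exact this
  ext D
  simp only [mem_fundDiscs, IsFundDisc, Finset.mem_filter, Finset.mem_Icc, Finset.mem_union,
    Finset.mem_erase, Finset.mem_image]
  constructor
  · rintro ⟨⟨⟨h1, h2⟩, hfd, hne⟩, hRD⟩
    rcases hfd with ⟨hmod, hsq⟩ | ⟨m, rfl, hmod, hsq⟩
    · left
      exact ⟨hne, ⟨h1, h2⟩, hmod, hsq, hRD⟩
    · right
      have hm0 : m ≠ 0 := by rintro rfl; omega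
      have hRm : R m := (h4 m hm0).mp hRD
      have hb1 : -((X / 4 : ℕ) : ℤ) ≤ m := by push_cast; omega
      have hb2 : m ≤ ((X / 4 : ℕ) : ℤ) := by push_cast; omega
      rcases hmod with hmod | hmod
      · left; exact ⟨m, ⟨⟨hb1, hb2⟩, hmod, hsq, hRm⟩, rfl⟩
      · right; exact ⟨m, ⟨⟨hb1, hb2⟩, hmod, hsq, hRm⟩, rfl⟩
  · rintro (⟨hne, ⟨h1, h2⟩, hmod, hsq, hRD⟩ | ⟨m, ⟨⟨h1, h2⟩, hmod, hsq, hRm⟩, rfl⟩ |
      ⟨m, ⟨⟨h1, h2⟩, hmod, hsq, hRm⟩, rfl⟩)
    · exact ⟨⟨⟨h1, h2⟩, Or.inl ⟨hmod, hsq⟩, hne⟩, hRD⟩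
    · have hm0 : m ≠ 0 := by rintro rfl; omega
      push_cast at h1 h2
      exact ⟨⟨⟨by omega, by omega⟩, Or.inr ⟨m, rfl, Or.inl hmod, hsq⟩, by omega⟩, (h4 m hm0).mpr hRm⟩
    · have hm0 : m ≠ 0 := by rintro rfl; omega
      push_cast at h1 h2
      exact ⟨⟨⟨by omega, by omega⟩, Or.inr ⟨m, rfl, Or.inr hmod, hsq⟩, by omega⟩, (h4 m hm0).mpr hRm⟩

/-- The count of fundamental discriminants with a square-invariant property, up to an error of
at most one, in terms of the counts of squarefree integers in the classes `1, 2, 3 mod 4`. -/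
lemma card_fundDiscs_filter (R : ℤ → Prop) [DecidablePred R]
    (hR : ∀ m d : ℤ, m ≠ 0 → d ≠ 0 → (R (m ^ 2 * d) ↔ R d)) (X : ℕ) :
    ((fundDiscs X).filter R).card ≤
        cnt (fun d => d % 4 = 1 ∧ Squarefree d ∧ R d) X
        + cnt (fun d => d % 4 = 2 ∧ Squarefree d ∧ R d) (X / 4)
        + cnt (fun d => d % 4 = 3 ∧ Squarefree d ∧ R d) (X / 4) ∧
    cnt (fun d => d % 4 = 1 ∧ Squarefree d ∧ R d) X
        + cnt (fun d => d % 4 = 2 ∧ Squarefree d ∧ R d) (X / 4)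
        + cnt (fun d => d % 4 = 3 ∧ Squarefree d ∧ R d) (X / 4)
      ≤ ((fundDiscs X).filter R).card + 1 := by
  rw [fundDiscs_filter_eq R hR X]
  set S1 := (Finset.Icc (-(X : ℤ)) (X : ℤ)).filter (fun d => d % 4 = 1 ∧ Squarefree d ∧ R d)
    with hS1
  set S2 := (Finset.Icc (-((X / 4 : ℕ) : ℤ)) ((X / 4 : ℕ) : ℤ)).filter
    (fun d => d % 4 = 2 ∧ Squarefree d ∧ R d) with hS2
  set S3 := (Finset.Icc (-((X / 4 : ℕ) : ℤ)) ((X / 4 : ℕ) : ℤ)).filter
    (fun d => d % 4 = 3 ∧ Squarefree d ∧ R d) with hS3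
  have hinj : Function.Injective (fun m : ℤ => 4 * m) := fun a b hab => by
    simp only at hab; omega
  have hd23 : Disjoint (S2.image (fun m => 4 * m)) (S3.image (fun m => 4 * m)) := by
    rw [Finset.disjoint_left]
    intro D hD2 hD3
    simp only [Finset.mem_image, hS2, hS3, Finset.mem_filter] at hD2 hD3
    obtain ⟨m, ⟨_, hm, _⟩, rfl⟩ := hD2
    obtain ⟨m', ⟨_, hm', _⟩, hmm⟩ := hD3
    omega
  have hd1 : Disjoint (S1.erase 1) (S2.image (fun m => 4 * m) ∪ S3.image (fun m => 4 * m)) := by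
    rw [Finset.disjoint_left]
    intro D hD1 hD23
    simp only [Finset.mem_erase, hS1, Finset.mem_filter] at hD1
    simp only [Finset.mem_union, Finset.mem_image] at hD23
    obtain ⟨_, _, hmod, _⟩ := hD1
    rcases hD23 with ⟨m, _, rfl⟩ | ⟨m, _, rfl⟩ <;> omega
  rw [Finset.card_union_of_disjoint hd1, Finset.card_union_of_disjoint hd23,
    Finset.card_image_of_injective _ hinj, Finset.card_image_of_injective _ hinj]
  have he1 : (S1.erase 1).card ≤ S1.card := Finset.card_erase_le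
  have he2 : S1.card ≤ (S1.erase 1).card + 1 := by
    have := Finset.pred_card_le_card_erase (s := S1) (a := 1)
    omega
  have c1 : cnt (fun d => d % 4 = 1 ∧ Squarefree d ∧ R d) X = S1.card := rfl
  have c2 : cnt (fun d => d % 4 = 2 ∧ Squarefree d ∧ R d) (X / 4) = S2.card := rfl
  have c3 : cnt (fun d => d % 4 = 3 ∧ Squarefree d ∧ R d) (X / 4) = S3.card := rfl
  rw [c1, c2, c3]
  constructor <;> omega

end Vale.Agent.Lib.P004
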