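import Vale.Agent.Lib.P004.Counts

namespace Vale.Agent.Lib.P004

open ArithmeticFunction Filter Topology

open Classical

lemma cnt_congr {R R' : ℤ → Prop} [DecidablePred R] [DecidablePred R'] (h : ∀ d, R d ↔ R' d)
    (N : ℕ) : cnt R N = cnt R' N := by
  unfold cnt
  congr 1
  ext d
  simp only [Finset.mem_filter, h]

/-- the number of `m` in `[1, N]` with `m ^ 2 ≤ N` is at most `√N` -/
lemma sum_indicator_sq_le (N : ℕ) :
    ∑ m ∈ Finset.Icc 1 N, (if m ^ 2 ≤ N then (1 : ℝ) else 0) ≤ Real.sqrt N := by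
  rw [Finset.sum_boole]
  have h1 : ((Finset.Icc 1 N).filter (fun m => m ^ 2 ≤ N)).card ≤ Nat.sqrt N := by
    have : (Finset.Icc 1 N).filter (fun m => m ^ 2 ≤ N) ⊆ Finset.Icc 1 (Nat.sqrt N) := by
      intro m hm
      simp only [Finset.mem_filter, Finset.mem_Icc] at hm ⊢
      exact ⟨hm.1.1, Nat.le_sqrt'.mpr hm.2⟩
    calc _ ≤ (Finset.Icc 1 (Nat.sqrt N)).card := Finset.card_le_card this
      _ = Nat.sqrt N := by simp
  calc ((((Finset.Icc 1 N).filter (fun m => m ^ 2 ≤ N)).card : ℕ) : ℝ) ≤ (Nat.sqrt N : ℝ) := by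
        exact_mod_cast h1
    _ ≤ Real.sqrt N := Real.nat_sqrt_le_real_sqrt

lemma sum_Icc_inv_sq_le_two (N : ℕ) : ∑ m ∈ Finset.Icc 1 N, ((m : ℝ) ^ 2)⁻¹ ≤ 2 := by
  rcases Nat.eq_zero_or_pos N with h | h
  · subst h; simp
  · have h1 : ∑ m ∈ Finset.Ioc 1 N, ((m : ℝ) ^ 2)⁻¹ ≤ ((1 : ℕ) : ℝ)⁻¹ - (N : ℝ)⁻¹ :=
      sum_Ioc_inv_sq_le_sub (by norm_num) h
    have h2 : ∑ m ∈ Finset.Icc 1 N, ((m : ℝ) ^ 2)⁻¹
        = ∑ m ∈ Finset.Ioc 1 N, ((m : ℝ) ^ 2)⁻¹ + (((1 : ℕ) : ℝ) ^ 2)⁻¹ :=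
      (Finset.sum_Ioc_add_eq_sum_Icc h).symm
    have h3 : (0 : ℝ) ≤ (N : ℝ)⁻¹ := by positivity
    rw [h2]
    norm_num at h1 ⊢
    linarith

lemma sum_Ioc_two_inv_sq_le (N : ℕ) : ∑ m ∈ Finset.Ioc 2 N, ((m : ℝ) ^ 2)⁻¹ ≤ 1 / 2 := by
  rcases Nat.lt_or_ge N 2 with h | h
  · rw [Finset.Ioc_eq_empty (by omega)]; simp
  · have h1 : ∑ m ∈ Finset.Ioc 2 N, ((m : ℝ) ^ 2)⁻¹ ≤ ((2 : ℕ) : ℝ)⁻¹ - (N : ℝ)⁻¹ :=
      sum_Ioc_inv_sq_le_sub (by norm_num) h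
    have h3 : (0 : ℝ) ≤ (N : ℝ)⁻¹ := by positivity
    norm_num at h1 ⊢
    linarith

/-- real-number version of the sieve identity -/
lemma cnt_squarefree_eq_real (R : ℤ → Prop) [DecidablePred R]
    (hR : ∀ m d : ℤ, m ≠ 0 → d ≠ 0 → (R (m ^ 2 * d) ↔ R d))
    (r : ℤ) (hr : r = 1 ∨ r = 2 ∨ r = 3) (N : ℕ) :
    (cnt (fun d => d % 4 = r ∧ Squarefree d ∧ R d) N : ℝ)
      = ∑ m ∈ Finset.Icc 1 N, (muOdd m : ℝ) * (cnt (fun d => d % 4 = r ∧ R d) (N / m ^ 2) : ℝ) := by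
  have h := cnt_squarefree_eq R hR r hr N
  have h' := congrArg (fun z : ℤ => (z : ℝ)) h
  simp only [Int.cast_natCast, Int.cast_sum, Int.cast_mul] at h'
  exact h'

/-- the case of no extra condition -/
lemma cnt_squarefree_eq_real_true (r : ℤ) (hr : r = 1 ∨ r = 2 ∨ r = 3) (N : ℕ) :
    (cnt (fun d => d % 4 = r ∧ Squarefree d) N : ℝ)
      = ∑ m ∈ Finset.Icc 1 N, (muOdd m : ℝ) * (cnt (fun d => d % 4 = r) (N / m ^ 2) : ℝ) := by
  have h := cnt_squarefree_eq_real (fun _ => True) (fun _ _ _ _ => Iff.rfl) r hr N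
  have e1 : cnt (fun d => d % 4 = r ∧ Squarefree d ∧ True) N
      = cnt (fun d => d % 4 = r ∧ Squarefree d) N := cnt_congr (fun d => by simp) N
  have e2 : ∀ n, cnt (fun d => d % 4 = r ∧ True) n = cnt (fun d => d % 4 = r) n :=
    fun n => cnt_congr (fun d => by simp) n
  rw [e1] at h
  rw [h]
  apply Finset.sum_congr rfl
  intro m _
  rw [e2]

lemma abs_muOdd_real_le_one (m : ℕ) : |(muOdd m : ℝ)| ≤ 1 := by
  have := abs_muOdd_le_one m
  have h : |(muOdd m : ℝ)| = ((|muOdd m| : ℤ) : ℝ) := by rw [Int.cast_abs]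
  rw [h]
  exact_mod_cast this

/-- bound for one class count in real terms -/
lemma cnt_class_div_le (r : ℤ) (hr : r = 1 ∨ r = 2 ∨ r = 3) (N m : ℕ) (hm : 1 ≤ m) :
    (cnt (fun d => d % 4 = r) (N / m ^ 2) : ℝ)
      ≤ (N : ℝ) / 2 * ((m : ℝ) ^ 2)⁻¹ + (if m ^ 2 ≤ N then (1 : ℝ) else 0) := by
  have hmpos : (0 : ℝ) < (m : ℝ) ^ 2 := by positivity
  by_cases h : m ^ 2 ≤ N
  · rw [if_pos h]
    have h1 := cnt_class_le' r hr (N / m ^ 2)
    have h2 : (2 : ℝ) * (cnt (fun d => d % 4 = r) (N / m ^ 2) : ℝ) ≤ ((N / m ^ 2 : ℕ) : ℝ) + 2 := by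
      exact_mod_cast h1
    have h3 : ((N / m ^ 2 : ℕ) : ℝ) ≤ (N : ℝ) / ((m : ℝ) ^ 2) := by
      have := Nat.cast_div_le (α := ℝ) (m := N) (n := m ^ 2)
      simpa using this
    have h4 : (N : ℝ) / 2 * ((m : ℝ) ^ 2)⁻¹ = (N : ℝ) / ((m : ℝ) ^ 2) / 2 := by
      field_simp
    rw [h4]
    linarith
  · rw [if_neg h]
    have h0 : N / m ^ 2 = 0 := Nat.div_eq_of_lt (not_le.mp h)
    rw [h0]
    have h1 := cnt_class_le r hr 0
    have h2 : cnt (fun d => d % 4 = r) 0 = 0 := by omega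
    rw [h2]
    simp only [Nat.cast_zero, add_zero]
    positivity

/-- lower bound for the number of squarefree integers in a class -/
theorem cnt_squarefree_class_ge (r : ℤ) (hr : r = 1 ∨ r = 2 ∨ r = 3) (N : ℕ) :
    (N : ℝ) / 4 - Real.sqrt N - 1 / 2 ≤ (cnt (fun d => d % 4 = r ∧ Squarefree d) N : ℝ) := by
  rcases Nat.lt_or_ge N 2 with hN | hN
  · have h1 : (0 : ℝ) ≤ (cnt (fun d => d % 4 = r ∧ Squarefree d) N : ℝ) := Nat.cast_nonneg _
    have h2 : (0 : ℝ) ≤ Real.sqrt N := Real.sqrt_nonneg _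
    have h3 : (N : ℝ) ≤ 1 := by exact_mod_cast (by omega : N ≤ 1)
    linarith
  · rw [cnt_squarefree_eq_real_true r hr N]
    have hsplit : ∑ m ∈ Finset.Icc 1 N, (muOdd m : ℝ) * (cnt (fun d => d % 4 = r) (N / m ^ 2) : ℝ)
        = ((muOdd 1 : ℝ) * (cnt (fun d => d % 4 = r) (N / 1 ^ 2) : ℝ)
            + (muOdd 2 : ℝ) * (cnt (fun d => d % 4 = r) (N / 2 ^ 2) : ℝ))
          + ∑ m ∈ Finset.Ioc 2 N, (muOdd m : ℝ) * (cnt (fun d => d % 4 = r) (N / m ^ 2) : ℝ) := by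
      have e : Finset.Icc 1 N = Finset.Ioc 0 N := by
        ext m; simp only [Finset.mem_Icc, Finset.mem_Ioc]; omega
      rw [e, ← Finset.sum_Ioc_consecutive _ (by omega : 0 ≤ 2) hN]
      congr 1
      have e2 : Finset.Ioc 0 2 = {1, 2} := by decide
      rw [e2, Finset.sum_pair (by norm_num)]
    rw [hsplit]
    have hmu1 : (muOdd 1 : ℝ) = 1 := by rw [muOdd_one]; simp
    have hmu2 : (muOdd 2 : ℝ) = 0 := by simp [muOdd]
    rw [hmu1, hmu2]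
    simp only [one_pow, Nat.div_one, one_mul, zero_mul, add_zero]
    have hT : ((N : ℝ) - 1) / 2 ≤ (cnt (fun d => d % 4 = r) N : ℝ) := by
      have h1 := cnt_class_ge r hr N
      have h2 : (N : ℝ) ≤ 2 * (cnt (fun d => d % 4 = r) N : ℝ) + 1 := by exact_mod_cast h1
      linarith
    have htail : -((N : ℝ) / 4 + Real.sqrt N)
        ≤ ∑ m ∈ Finset.Ioc 2 N, (muOdd m : ℝ) * (cnt (fun d => d % 4 = r) (N / m ^ 2) : ℝ) := by
      have hb : ∀ m ∈ Finset.Ioc 2 N,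
          -((N : ℝ) / 2 * ((m : ℝ) ^ 2)⁻¹ + (if m ^ 2 ≤ N then (1 : ℝ) else 0))
            ≤ (muOdd m : ℝ) * (cnt (fun d => d % 4 = r) (N / m ^ 2) : ℝ) := by
        intro m hm
        rw [Finset.mem_Ioc] at hm
        have h1 := cnt_class_div_le r hr N m (by omega)
        have h2 := abs_muOdd_real_le_one m
        have h3 : (0 : ℝ) ≤ (cnt (fun d => d % 4 = r) (N / m ^ 2) : ℝ) := Nat.cast_nonneg _
        have h4 : -(1 : ℝ) ≤ (muOdd m : ℝ) := (abs_le.mp h2).1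
        nlinarith
      have hsum := Finset.sum_le_sum hb
      have hle : ∑ m ∈ Finset.Ioc 2 N,
          ((N : ℝ) / 2 * ((m : ℝ) ^ 2)⁻¹ + (if m ^ 2 ≤ N then (1 : ℝ) else 0))
            ≤ (N : ℝ) / 4 + Real.sqrt N := by
        rw [Finset.sum_add_distrib, ← Finset.mul_sum]
        have h5 := sum_Ioc_two_inv_sq_le N
        have h6 : ∑ m ∈ Finset.Ioc 2 N, (if m ^ 2 ≤ N then (1 : ℝ) else 0) ≤ Real.sqrt N := by
          refine le_trans ?_ (sum_indicator_sq_le N)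
          apply Finset.sum_le_sum_of_subset_of_nonneg
          · intro m hm
            simp only [Finset.mem_Ioc, Finset.mem_Icc] at hm ⊢
            omega
          · intro m _ _
            split_ifs <;> norm_num
        have h7 : (0 : ℝ) ≤ (N : ℝ) / 2 := by positivity
        nlinarith
      rw [Finset.sum_neg_distrib] at hsum
      linarith
    linarith

end Vale.Agent.Lib.P004
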