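import Vale.Agent.Lib.P004.Sieve

namespace Vale.Agent.Lib.P004

open ArithmeticFunction

open Classical

/-- Exact count of the integers `d` with `|d| ≤ n` in the class `r mod 4`. -/
lemma cnt_class_eq (r : ℤ) (hr : r = 1 ∨ r = 2 ∨ r = 3) (n : ℕ) :
    (cnt (fun d => d % 4 = r) n : ℤ) = ((n : ℤ) - r) / 4 + ((n : ℤ) + r) / 4 + 1 := by
  unfold cnt
  have hset : (Finset.Icc (-(n : ℤ)) (n : ℤ)).filter (fun d => d % 4 = r)
      = (Finset.Icc (-(((n : ℤ) + r) / 4)) (((n : ℤ) - r) / 4)).image (fun k => 4 * k + r) := by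
    ext d
    simp only [Finset.mem_filter, Finset.mem_Icc, Finset.mem_image]
    constructor
    · rintro ⟨⟨h1, h2⟩, h3⟩
      refine ⟨d / 4, ⟨?_, ?_⟩, ?_⟩ <;> rcases hr with h | h | h <;> omega
    · rintro ⟨k, ⟨h1, h2⟩, rfl⟩
      refine ⟨⟨?_, ?_⟩, ?_⟩ <;> rcases hr with h | h | h <;> omega
  rw [hset, Finset.card_image_of_injective _ (fun a b hab => by simpa using hab), Int.card_Icc]
  rcases hr with h | h | h <;> omega

lemma cnt_class_le (r : ℤ) (hr : r = 1 ∨ r = 2 ∨ r = 3) (n : ℕ) :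
    cnt (fun d => d % 4 = r) n ≤ n := by
  have := cnt_class_eq r hr n
  rcases hr with h | h | h <;> omega

lemma cnt_class_le' (r : ℤ) (hr : r = 1 ∨ r = 2 ∨ r = 3) (n : ℕ) :
    2 * cnt (fun d => d % 4 = r) n ≤ n + 2 := by
  have := cnt_class_eq r hr n
  rcases hr with h | h | h <;> omega

lemma cnt_class_ge (r : ℤ) (hr : r = 1 ∨ r = 2 ∨ r = 3) (n : ℕ) :
    n ≤ 2 * cnt (fun d => d % 4 = r) n + 1 := by
  have := cnt_class_eq r hr n
  rcases hr with h | h | h <;> omega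

lemma cnt_zero (R : ℤ → Prop) [DecidablePred R] (r : ℤ) (hr : r = 1 ∨ r = 2 ∨ r = 3) :
    cnt (fun d => d % 4 = r ∧ R d) 0 = 0 := by
  unfold cnt
  rw [Finset.card_eq_zero, Finset.filter_eq_empty_iff]
  intro d hd
  simp only [Nat.cast_zero, neg_zero, Finset.Icc_self, Finset.mem_singleton] at hd
  subst hd
  rcases hr with h | h | h <;> simp [h]

lemma cnt_and_le (R : ℤ → Prop) [DecidablePred R] (r : ℤ) (n : ℕ) :
    cnt (fun d => d % 4 = r ∧ R d) n ≤ cnt (fun d => d % 4 = r) n := by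
  unfold cnt
  apply Finset.card_le_card
  intro d hd
  simp only [Finset.mem_filter] at hd ⊢
  exact ⟨hd.1, hd.2.1⟩

end Vale.Agent.Lib.P004
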