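import Mathlib

namespace Vale.Agent.Lib.P004

/-- `D` is a fundamental discriminant: either `D ≡ 1 (mod 4)` and `D` is squarefree, or
`D = 4 m` with `m ≡ 2, 3 (mod 4)` and `m` squarefree. -/
def IsFundDisc (D : ℤ) : Prop :=
  (D % 4 = 1 ∧ Squarefree D) ∨ (∃ m : ℤ, D = 4 * m ∧ (m % 4 = 2 ∨ m % 4 = 3) ∧ Squarefree m)

open Classical in
/-- `fundDiscs X` is the finite set of fundamental discriminants `D ≠ 1` with `|D| ≤ X`. -/
noncomputable def fundDiscs (X : ℕ) : Finset ℤ :=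
  (Finset.Icc (-(X : ℤ)) (X : ℤ)).filter (fun D => IsFundDisc D ∧ D ≠ 1)

open Classical in
/-- `propFD P X` is the proportion of `D` in `fundDiscs X` that satisfy `P`. -/
noncomputable def propFD (P : ℤ → Prop) (X : ℕ) : ℝ :=
  (((fundDiscs X).filter P).card : ℝ) / ((fundDiscs X).card : ℝ)

/-- `meanFD a X` is the mean of `a` over `fundDiscs X`. -/
noncomputable def meanFD (a : ℤ → ℕ) (X : ℕ) : ℝ :=
  (∑ D ∈ fundDiscs X, (a D : ℝ)) / ((fundDiscs X).card : ℝ)

end Vale.Agent.Lib.P004
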