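import Mathlib

set_option linter.unusedSectionVars false

namespace Vale.Agent.Lib.P004

open Filter Topology

section general

variable {ι : Type*} (a : ι → ℕ)
  [DecidablePred fun D => Even (a D)] [DecidablePred fun D => a D = 0]
  [DecidablePred fun D => a D = 1]

lemma key_ineq (s : Finset ι) :
    ((s.card : ℝ) - (s.filter (fun D => Even (a D))).card)
      + 2 * (((s.filter (fun D => Even (a D))).card : ℝ) - (s.filter (fun D => a D = 0)).card)
      + 2 * (((s.card : ℝ) - (s.filter (fun D => Even (a D))).card) - (s.filter (fun D => a D = 1)).card)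
      ≤ ∑ D ∈ s, (a D : ℝ) := by
  have h1 : ((s.filter (fun D => Even (a D))).card : ℝ) = ∑ D ∈ s, (if Even (a D) then (1:ℝ) else 0) := by
    rw [Finset.card_filter]; push_cast; rfl
  have h2 : ((s.filter (fun D => a D = 0)).card : ℝ) = ∑ D ∈ s, (if a D = 0 then (1:ℝ) else 0) := by
    rw [Finset.card_filter]; push_cast; rfl
  have h3 : ((s.filter (fun D => a D = 1)).card : ℝ) = ∑ D ∈ s, (if a D = 1 then (1:ℝ) else 0) := by
    rw [Finset.card_filter]; push_cast; rfl
  have h4 : (s.card : ℝ) = ∑ D ∈ s, (1:ℝ) := by simp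
  have key : ∀ D ∈ s, ((1:ℝ) - (if Even (a D) then (1:ℝ) else 0))
      + 2 * ((if Even (a D) then (1:ℝ) else 0) - (if a D = 0 then (1:ℝ) else 0))
      + 2 * (((1:ℝ) - (if Even (a D) then (1:ℝ) else 0)) - (if a D = 1 then (1:ℝ) else 0))
      ≤ (a D : ℝ) := by
    intro D _
    rcases Nat.even_or_odd (a D) with he | ho
    · by_cases h0 : a D = 0
      · simp [h0]
      · have h1' : a D ≠ 1 := by
          intro h; rw [h] at he; exact absurd he (by decide)
        have h2' : 2 ≤ a D := by
          rcases he with ⟨k, hk⟩; omega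
        have : (2:ℝ) ≤ a D := by exact_mod_cast h2'
        simp [he, h0, h1']
        linarith
    · have hne : ¬ Even (a D) := Nat.not_even_iff_odd.mpr ho
      have h0 : a D ≠ 0 := by
        intro h; rw [h] at ho; exact absurd ho (by decide)
      by_cases h1' : a D = 1
      · simp [h1']
      · have h3' : 3 ≤ a D := by
          rcases ho with ⟨k, hk⟩; omega
        have : (3:ℝ) ≤ a D := by exact_mod_cast h3'
        simp [hne, h0, h1']
        linarith
  calc _ = ∑ D ∈ s, (((1:ℝ) - (if Even (a D) then (1:ℝ) else 0))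
      + 2 * ((if Even (a D) then (1:ℝ) else 0) - (if a D = 0 then (1:ℝ) else 0))
      + 2 * (((1:ℝ) - (if Even (a D) then (1:ℝ) else 0)) - (if a D = 1 then (1:ℝ) else 0))) := by
        rw [h1, h2, h3, h4]
        simp only [Finset.sum_add_distrib, ← Finset.mul_sum, Finset.sum_sub_distrib]
    _ ≤ _ := Finset.sum_le_sum key

lemma card_zero_le_even (s : Finset ι) :
    (s.filter (fun D => a D = 0)).card ≤ (s.filter (fun D => Even (a D))).card := by
  apply Finset.card_le_card
  intro D hD
  simp only [Finset.mem_filter] at hD ⊢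
  exact ⟨hD.1, by rw [hD.2]; exact Even.zero⟩

lemma card_one_le_odd (s : Finset ι) :
    (s.filter (fun D => a D = 1)).card + (s.filter (fun D => Even (a D))).card ≤ s.card := by
  classical
  rw [← Finset.card_union_of_disjoint]
  · apply Finset.card_le_card
    intro D hD
    simp only [Finset.mem_union, Finset.mem_filter] at hD
    rcases hD with h | h <;> exact h.1
  · rw [Finset.disjoint_filter]
    intro D _ h1 he
    rw [h1] at he
    exact absurd he (by decide)

variable (F : ℕ → Finset ι)

/-- Average form implies density form, given parity equidistribution. -/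
theorem avg_imp_dens
    (hpar : Tendsto (fun X : ℕ => (((F X).filter (fun D => Even (a D))).card : ℝ) / ((F X).card : ℝ))
      atTop (𝓝 (1 / 2)))
    (havg : Tendsto (fun X : ℕ => (∑ D ∈ F X, (a D : ℝ)) / ((F X).card : ℝ)) atTop (𝓝 (1 / 2))) :
    Tendsto (fun X : ℕ => (((F X).filter (fun D => a D = 0)).card : ℝ) / ((F X).card : ℝ))
      atTop (𝓝 (1 / 2)) ∧
    Tendsto (fun X : ℕ => (((F X).filter (fun D => a D = 1)).card : ℝ) / ((F X).card : ℝ))
      atTop (𝓝 (1 / 2)) := by
  set e : ℕ → ℝ := fun X : ℕ => (((F X).filter (fun D => Even (a D))).card : ℝ) / ((F X).card : ℝ) with he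
  set v : ℕ → ℝ := fun X : ℕ => (∑ D ∈ F X, (a D : ℝ)) / ((F X).card : ℝ) with hv
  -- eventually the sets are nonempty
  have hpos : ∀ᶠ X in atTop, 0 < ((F X).card : ℝ) := by
    have : ∀ᶠ X in atTop, (1/4 : ℝ) < e X := hpar.eventually (lt_mem_nhds (by norm_num))
    filter_upwards [this] with X hX
    by_contra hcon
    have h0 : ((F X).card : ℝ) = 0 := by
      have : (0:ℝ) ≤ ((F X).card : ℝ) := Nat.cast_nonneg _
      linarith [not_lt.mp hcon]
    simp only [he, h0, div_zero] at hX
    norm_num at hX
  -- pointwise inequalities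
  have hineq : ∀ᶠ X in atTop,
      (1 - e X) + 2 * (e X - (((F X).filter (fun D => a D = 0)).card : ℝ) / ((F X).card : ℝ))
        + 2 * ((1 - e X) - (((F X).filter (fun D => a D = 1)).card : ℝ) / ((F X).card : ℝ)) ≤ v X := by
    filter_upwards [hpos] with X hX
    have hk := key_ineq a (F X)
    have hne : ((F X).card : ℝ) ≠ 0 := ne_of_gt hX
    simp only [he, hv]
    rw [le_div_iff₀ hX]
    have : ((1 - (((F X).filter (fun D => Even (a D))).card : ℝ) / ((F X).card : ℝ))
        + 2 * ((((F X).filter (fun D => Even (a D))).card : ℝ) / ((F X).card : ℝ)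
            - (((F X).filter (fun D => a D = 0)).card : ℝ) / ((F X).card : ℝ))
        + 2 * ((1 - (((F X).filter (fun D => Even (a D))).card : ℝ) / ((F X).card : ℝ))
            - (((F X).filter (fun D => a D = 1)).card : ℝ) / ((F X).card : ℝ))) * ((F X).card : ℝ)
        = (((F X).card : ℝ) - ((F X).filter (fun D => Even (a D))).card)
      + 2 * ((((F X).filter (fun D => Even (a D))).card : ℝ) - ((F X).filter (fun D => a D = 0)).card)
      + 2 * ((((F X).card : ℝ) - ((F X).filter (fun D => Even (a D))).card)
          - ((F X).filter (fun D => a D = 1)).card) := by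
      field_simp
    rw [this]
    exact hk
  have hz_le : ∀ᶠ X in atTop,
      (((F X).filter (fun D => a D = 0)).card : ℝ) / ((F X).card : ℝ) ≤ e X := by
    filter_upwards [hpos] with X hX
    simp only [he]
    apply div_le_div_of_nonneg_right _ hX.le
    exact_mod_cast card_zero_le_even a (F X)
  have hu_le : ∀ᶠ X in atTop,
      (((F X).filter (fun D => a D = 1)).card : ℝ) / ((F X).card : ℝ) ≤ 1 - e X := by
    filter_upwards [hpos] with X hX
    simp only [he]
    rw [div_le_iff₀ hX, sub_mul, div_mul_cancel₀ _ (ne_of_gt hX), one_mul]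
    have := card_one_le_odd a (F X)
    have h' : (((F X).filter (fun D => a D = 1)).card : ℝ)
        + (((F X).filter (fun D => Even (a D))).card : ℝ) ≤ ((F X).card : ℝ) := by
      exact_mod_cast this
    linarith
  constructor
  · -- z is squeezed between e - (v - (1 - e))/2 and e
    have hlow : Tendsto (fun X => e X - (v X - (1 - e X)) / 2) atTop (𝓝 (1/2)) := by
      have h1 : Tendsto (fun X => 1 - e X) atTop (𝓝 (1 - 1/2)) :=
        (tendsto_const_nhds (x := (1:ℝ))).sub hpar
      have := (hpar.sub ((havg.sub h1).div_const 2))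
      convert this using 2
      norm_num
    refine tendsto_of_tendsto_of_tendsto_of_le_of_le' hlow hpar ?_ hz_le
    filter_upwards [hineq, hu_le] with X h1 h2
    linarith
  · have hup : Tendsto (fun X => 1 - e X) atTop (𝓝 (1/2)) := by
      have := (tendsto_const_nhds (x := (1:ℝ))).sub hpar
      convert this using 2
      norm_num
    have hlow : Tendsto (fun X => (1 - e X) - (v X - (1 - e X)) / 2) atTop (𝓝 (1/2)) := by
      have := (hup.sub ((havg.sub hup).div_const 2))
      convert this using 2
      norm_num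
    refine tendsto_of_tendsto_of_tendsto_of_le_of_le' hlow hup ?_ hu_le
    filter_upwards [hineq, hz_le] with X h1 h2
    linarith

lemma tail_bound (s : Finset ι) :
    ∃ W : ℝ, 0 ≤ W ∧
      (∑ D ∈ s, (a D : ℝ)) = ((s.filter (fun D => a D = 1)).card : ℝ) + W ∧
      W ^ 2 ≤ ((s.card : ℝ) - (s.filter (fun D => a D = 0)).card - (s.filter (fun D => a D = 1)).card)
        * ∑ D ∈ s, (a D : ℝ) ^ 2 := by
  refine ⟨∑ D ∈ s, (if 2 ≤ a D then (1:ℝ) else 0) * (a D : ℝ), ?_, ?_, ?_⟩
  · apply Finset.sum_nonneg
    intro D _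
    positivity
  · have h3 : ((s.filter (fun D => a D = 1)).card : ℝ) = ∑ D ∈ s, (if a D = 1 then (1:ℝ) else 0) := by
      rw [Finset.card_filter]; push_cast; rfl
    rw [h3, ← Finset.sum_add_distrib]
    apply Finset.sum_congr rfl
    intro D _
    by_cases h1 : a D = 1
    · simp [h1]
    · by_cases h0 : a D = 0
      · simp [h0]
      · have : 2 ≤ a D := by omega
        simp [h1, this]
  · have hcs := Finset.sum_mul_sq_le_sq_mul_sq s (fun D => (if 2 ≤ a D then (1:ℝ) else 0))
      (fun D => (a D : ℝ))
    have hT : ∑ D ∈ s, (if 2 ≤ a D then (1:ℝ) else 0) ^ 2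
        = (s.card : ℝ) - (s.filter (fun D => a D = 0)).card - (s.filter (fun D => a D = 1)).card := by
      have h2 : ((s.filter (fun D => a D = 0)).card : ℝ) = ∑ D ∈ s, (if a D = 0 then (1:ℝ) else 0) := by
        rw [Finset.card_filter]; push_cast; rfl
      have h3 : ((s.filter (fun D => a D = 1)).card : ℝ) = ∑ D ∈ s, (if a D = 1 then (1:ℝ) else 0) := by
        rw [Finset.card_filter]; push_cast; rfl
      have h4 : (s.card : ℝ) = ∑ D ∈ s, (1:ℝ) := by simp
      rw [h2, h3, h4, ← Finset.sum_sub_distrib, ← Finset.sum_sub_distrib]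
      apply Finset.sum_congr rfl
      intro D _
      by_cases h1 : a D = 1
      · simp [h1]
      · by_cases h0 : a D = 0
        · simp [h0]
        · have : 2 ≤ a D := by omega
          simp [h1, h0, this]
    rw [hT] at hcs
    exact hcs

/-- Density form implies average form, given a bounded second moment. -/
theorem dens_imp_avg (C : ℝ)
    (h2 : ∀ X, ∑ D ∈ F X, (a D : ℝ) ^ 2 ≤ C * ((F X).card : ℝ))
    (hz : Tendsto (fun X : ℕ => (((F X).filter (fun D => a D = 0)).card : ℝ) / ((F X).card : ℝ))
      atTop (𝓝 (1 / 2)))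
    (hu : Tendsto (fun X : ℕ => (((F X).filter (fun D => a D = 1)).card : ℝ) / ((F X).card : ℝ))
      atTop (𝓝 (1 / 2))) :
    Tendsto (fun X : ℕ => (∑ D ∈ F X, (a D : ℝ)) / ((F X).card : ℝ)) atTop (𝓝 (1 / 2)) := by
  set z : ℕ → ℝ := fun X : ℕ => (((F X).filter (fun D => a D = 0)).card : ℝ) / ((F X).card : ℝ) with hzdef
  set u : ℕ → ℝ := fun X : ℕ => (((F X).filter (fun D => a D = 1)).card : ℝ) / ((F X).card : ℝ) with hudef
  have hpos : ∀ᶠ X in atTop, 0 < ((F X).card : ℝ) := by
    have : ∀ᶠ X in atTop, (1/4 : ℝ) < z X := hz.eventually (lt_mem_nhds (by norm_num))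
    filter_upwards [this] with X hX
    by_contra hcon
    have h0 : ((F X).card : ℝ) = 0 := by
      have : (0:ℝ) ≤ ((F X).card : ℝ) := Nat.cast_nonneg _
      linarith [not_lt.mp hcon]
    simp only [hzdef, h0, div_zero] at hX
    norm_num at hX
  -- the tail term
  have hsq : Tendsto (fun X => Real.sqrt ((1 - z X - u X) * C)) atTop (𝓝 0) := by
    have h1 : Tendsto (fun X => (1 - z X - u X) * C) atTop (𝓝 ((1 - 1/2 - 1/2) * C)) :=
      (((tendsto_const_nhds (x := (1:ℝ))).sub hz).sub hu).mul_const C
    have h2' := (Real.continuous_sqrt.tendsto _).comp h1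
    have h3 : Real.sqrt ((1 - 1/2 - 1/2) * C) = 0 := by norm_num
    rw [h3] at h2'
    exact h2'
  have hup : Tendsto (fun X => u X + Real.sqrt ((1 - z X - u X) * C)) atTop (𝓝 (1/2)) := by
    have := hu.add hsq
    simpa using this
  refine tendsto_of_tendsto_of_tendsto_of_le_of_le' hu hup ?_ ?_
  · filter_upwards [hpos] with X hX
    obtain ⟨W, hW0, hW1, hW2⟩ := tail_bound a (F X)
    simp only [hudef]
    rw [hW1]
    apply div_le_div_of_nonneg_right _ hX.le
    linarith
  · filter_upwards [hpos] with X hX
    obtain ⟨W, hW0, hW1, hW2⟩ := tail_bound a (F X)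
    have hne : ((F X).card : ℝ) ≠ 0 := ne_of_gt hX
    rw [hW1, add_div]
    simp only [hudef, hzdef]
    gcongr
    apply Real.le_sqrt_of_sq_le
    have hb := h2 X
    have hfac : 0 ≤ ((F X).card : ℝ) - ((F X).filter (fun D => a D = 0)).card
        - ((F X).filter (fun D => a D = 1)).card := by
      have hle : ((F X).filter (fun D => a D = 0)).card + ((F X).filter (fun D => a D = 1)).card
          ≤ (F X).card := by
        classical
        rw [← Finset.card_union_of_disjoint]
        · apply Finset.card_le_card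
          intro D hD
          simp only [Finset.mem_union, Finset.mem_filter] at hD
          rcases hD with h | h <;> exact h.1
        · rw [Finset.disjoint_filter]
          intro D _ h0 h1
          omega
      have : (((F X).filter (fun D => a D = 0)).card : ℝ) + ((F X).filter (fun D => a D = 1)).card
          ≤ ((F X).card : ℝ) := by exact_mod_cast hle
      linarith
    have h5 : W ^ 2 ≤ (((F X).card : ℝ) - ((F X).filter (fun D => a D = 0)).card
        - ((F X).filter (fun D => a D = 1)).card) * (C * ((F X).card : ℝ)) :=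
      hW2.trans (mul_le_mul_of_nonneg_left hb hfac)
    rw [div_pow, div_le_iff₀ (by positivity)]
    calc W ^ 2 ≤ _ := h5
      _ = _ := by field_simp

end general

end Vale.Agent.Lib.P004
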