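import Mathlib

namespace Vale.Agent.Lib.P004

open ArithmeticFunction

/-- If `m ^ 2 ∣ b ^ 2 * a` with `a` squarefree then `m ∣ b`. -/
lemma dvd_of_sq_dvd_sq_mul {m b a : ℕ} (ha : Squarefree a) (h : m ^ 2 ∣ b ^ 2 * a) : m ∣ b := by
  rcases Nat.eq_zero_or_pos b with hb | hb
  · subst hb; exact dvd_zero m
  obtain ⟨m', b', hcop, hm, hb'⟩ := Nat.exists_coprime m b
  set g := Nat.gcd m b with hg
  have hgpos : 0 < g := Nat.gcd_pos_of_pos_right m hb
  rw [hm, hb'] at h
  have h2 : m' ^ 2 ∣ b' ^ 2 * a := by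
    have h3 : g ^ 2 * m' ^ 2 ∣ g ^ 2 * (b' ^ 2 * a) := by
      have e1 : (m' * g) ^ 2 = g ^ 2 * m' ^ 2 := by ring
      have e2 : (b' * g) ^ 2 * a = g ^ 2 * (b' ^ 2 * a) := by ring
      rw [← e1, ← e2]; exact h
    exact (Nat.mul_dvd_mul_iff_left (by positivity)).mp h3
  have hcop2 : Nat.Coprime (m' ^ 2) (b' ^ 2) := Nat.Coprime.pow 2 2 hcop
  have h4 : m' ^ 2 ∣ a := hcop2.dvd_of_dvd_mul_left h2
  have h5 : IsUnit m' := ha m' (by rw [← pow_two]; exact h4)
  have h6 : m' = 1 := Nat.isUnit_iff.mp h5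
  rw [hm, h6, one_mul]
  exact Nat.gcd_dvd_right m b

/-- The squarefree indicator as a sum of the Moebius function over square divisors. -/
lemma sum_moebius_sq_dvd (n K : ℕ) (hn : n ≠ 0) (hK : n ≤ K) :
    ∑ m ∈ (Finset.Icc 1 K).filter (fun m => m ^ 2 ∣ n), moebius m = if Squarefree n then 1 else 0 := by
  obtain ⟨a, b, hpos_a, hpos_b, hab, hsq⟩ := Nat.sq_mul_squarefree_of_pos (Nat.pos_of_ne_zero hn)
  have hset : (Finset.Icc 1 K).filter (fun m => m ^ 2 ∣ n) = b.divisors := by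
    ext m
    simp only [Finset.mem_filter, Finset.mem_Icc, Nat.mem_divisors]
    constructor
    · rintro ⟨⟨h1, h2⟩, h3⟩
      rw [← hab] at h3
      exact ⟨dvd_of_sq_dvd_sq_mul hsq h3, hpos_b.ne'⟩
    · rintro ⟨h1, h2⟩
      have hm_pos : 0 < m := Nat.pos_of_dvd_of_pos h1 hpos_b
      have hmb : m ≤ b := Nat.le_of_dvd hpos_b h1
      have : b ≤ n := by rw [← hab]; nlinarith
      refine ⟨⟨hm_pos, by omega⟩, ?_⟩
      rw [← hab]
      exact Dvd.dvd.mul_right (pow_dvd_pow_of_dvd h1 2) a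
  rw [hset]
  have hsum : ∑ m ∈ b.divisors, moebius m = if b = 1 then 1 else 0 := by
    have := congrArg (fun f : ArithmeticFunction ℤ => f b) moebius_mul_coe_zeta
    simp only [coe_mul_zeta_apply] at this
    rw [this]
    simp [ArithmeticFunction.one_apply]
  rw [hsum]
  have : (b = 1) ↔ Squarefree n := by
    constructor
    · rintro rfl; simpa [← hab] using hsq
    · intro h
      rw [← hab] at h
      have := h b (by rw [pow_two]; exact Dvd.intro _ rfl)
      exact Nat.isUnit_iff.mp this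
  simp [this]

end Vale.Agent.Lib.P004
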