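import Vale.Agent.Lib.P004.Moebius

namespace Vale.Agent.Lib.P004

open ArithmeticFunction

open Classical

/-- Integer version of the squarefree indicator identity. -/
lemma sum_moebius_sq_dvd_int (d : ℤ) (K : ℕ) (hd : d ≠ 0) (hK : d.natAbs ≤ K) :
    ∑ m ∈ (Finset.Icc 1 K).filter (fun m : ℕ => (m : ℤ) ^ 2 ∣ d), moebius m
      = if Squarefree d then 1 else 0 := by
  have h1 := sum_moebius_sq_dvd d.natAbs K (Int.natAbs_ne_zero.mpr hd) hK
  have h2 : (Finset.Icc 1 K).filter (fun m : ℕ => (m : ℤ) ^ 2 ∣ d)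
      = (Finset.Icc 1 K).filter (fun m : ℕ => m ^ 2 ∣ d.natAbs) := by
    apply Finset.filter_congr
    intro m _
    rw [← Int.natCast_dvd]
    push_cast
    rfl
  rw [h2, h1]
  simp only [Int.squarefree_natAbs]

/-- `cnt R N` is the number of integers `d` with `|d| ≤ N` satisfying `R`. -/
noncomputable def cnt (R : ℤ → Prop) [DecidablePred R] (N : ℕ) : ℕ :=
  ((Finset.Icc (-(N : ℤ)) (N : ℤ)).filter R).card

/-- The Moebius function restricted to odd arguments. -/
noncomputable def muOdd (m : ℕ) : ℤ := if Odd m then moebius m else 0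

lemma abs_muOdd_le_one (m : ℕ) : |muOdd m| ≤ 1 := by
  unfold muOdd
  split_ifs
  · exact abs_moebius_le_one
  · simp

lemma muOdd_one : muOdd 1 = 1 := by
  simp [muOdd]

section sieve

variable (R : ℤ → Prop) [DecidablePred R]

/-- Elements of the class `r mod 4` (with `r ≠ 0 mod 4`) divisible by the square of an even
number do not exist. -/
lemma filter_even_sq_dvd_eq_empty (r : ℤ) (hr : r = 1 ∨ r = 2 ∨ r = 3) (N m : ℕ) (hm : ¬ Odd m) :
    ((Finset.Icc (-(N : ℤ)) (N : ℤ)).filter (fun d => d % 4 = r ∧ R d)).filter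
      (fun d => (m : ℤ) ^ 2 ∣ d) = ∅ := by
  rw [Finset.filter_eq_empty_iff]
  intro d hd hdiv
  rw [Finset.mem_filter] at hd
  obtain ⟨k, hk⟩ := Nat.not_odd_iff_even.mp hm
  obtain ⟨c, hc⟩ := hdiv
  have h4 : d = 4 * ((k : ℤ) ^ 2 * c) := by
    rw [hc, hk]; push_cast; ring
  have : d % 4 = 0 := by rw [h4]; exact Int.mul_emod_right 4 _
  rcases hr with h | h | h <;> omega

/-- Elements of the class `r mod 4` divisible by the square of an odd number `m` correspond to
elements of the class of size at most `N / m ^ 2`. -/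
lemma card_filter_odd_sq_dvd (hR : ∀ m d : ℤ, m ≠ 0 → d ≠ 0 → (R (m ^ 2 * d) ↔ R d))
    (r : ℤ) (hr : r = 1 ∨ r = 2 ∨ r = 3) (N m : ℕ) (hm : Odd m) :
    (((Finset.Icc (-(N : ℤ)) (N : ℤ)).filter (fun d => d % 4 = r ∧ R d)).filter
      (fun d => (m : ℤ) ^ 2 ∣ d)).card = cnt (fun d => d % 4 = r ∧ R d) (N / m ^ 2) := by
  have hm0 : m ≠ 0 := by rintro rfl; simp at hm
  have hmpos : 0 < m ^ 2 := by positivity
  have hmz : (m : ℤ) ≠ 0 := by exact_mod_cast hm0
  have hm4 : ((m : ℤ) ^ 2) % 4 = 1 := by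
    obtain ⟨k, hk⟩ := hm
    rw [hk]; push_cast
    have : (2 * (k : ℤ) + 1) ^ 2 = 4 * (k ^ 2 + k) + 1 := by ring
    rw [this]; omega
  unfold cnt
  symm
  apply Finset.card_bij (fun d' _ => (m : ℤ) ^ 2 * d')
  · intro d' hd'
    simp only [Finset.mem_filter, Finset.mem_Icc] at hd' ⊢
    obtain ⟨⟨h1, h2⟩, h3, h4⟩ := hd'
    have hd0 : d' ≠ 0 := by
      rintro rfl
      rcases hr with h | h | h <;> omega
    have hle : (m : ℤ) ^ 2 * ((N / m ^ 2 : ℕ) : ℤ) ≤ (N : ℤ) := by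
      have := Nat.mul_div_le N (m ^ 2)
      exact_mod_cast this
    have hpos : (0 : ℤ) < (m : ℤ) ^ 2 := by positivity
    refine ⟨⟨⟨by nlinarith, by nlinarith⟩, ?_, (hR m d' hmz hd0).mpr h4⟩, Dvd.intro _ rfl⟩
    rw [Int.mul_emod, hm4, one_mul, Int.emod_emod_of_dvd _ (dvd_refl 4), h3]
  · intro a _ b _ hab
    exact mul_left_cancel₀ (pow_ne_zero 2 hmz) hab
  · intro d hd
    simp only [Finset.mem_filter, Finset.mem_Icc] at hd
    obtain ⟨⟨⟨h1, h2⟩, h3, h4⟩, c, hc⟩ := hd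
    have hc0 : c ≠ 0 := by
      rintro rfl
      rw [mul_zero] at hc
      rw [hc] at h3
      rcases hr with h | h | h <;> omega
    have hpos : (0 : ℤ) < (m : ℤ) ^ 2 := by positivity
    have hcabs : c.natAbs ≤ N / m ^ 2 := by
      rw [Nat.le_div_iff_mul_le hmpos]
      have : (c.natAbs : ℤ) * (m : ℤ) ^ 2 ≤ N := by
        rw [Int.natCast_natAbs]
        rcases abs_cases c with ⟨h, _⟩ | ⟨h, _⟩ <;> rw [h] <;> nlinarith
      exact_mod_cast this
    have hcle : |c| ≤ ((N / m ^ 2 : ℕ) : ℤ) := by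
      rw [← Int.natCast_natAbs]; exact_mod_cast hcabs
    refine ⟨c, ?_, hc.symm⟩
    simp only [Finset.mem_filter, Finset.mem_Icc]
    refine ⟨⟨by linarith [neg_abs_le c], by linarith [le_abs_self c]⟩, ?_, ?_⟩
    · rw [hc, Int.mul_emod, hm4, one_mul, Int.emod_emod_of_dvd _ (dvd_refl 4)] at h3
      exact h3
    · rw [hc] at h4
      exact (hR m c hmz hc0).mp h4

/-- The sieve identity: squarefree elements of a class counted through all elements. -/
theorem cnt_squarefree_eq (hR : ∀ m d : ℤ, m ≠ 0 → d ≠ 0 → (R (m ^ 2 * d) ↔ R d))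
    (r : ℤ) (hr : r = 1 ∨ r = 2 ∨ r = 3) (N : ℕ) :
    (cnt (fun d => d % 4 = r ∧ Squarefree d ∧ R d) N : ℤ)
      = ∑ m ∈ Finset.Icc 1 N, muOdd m * (cnt (fun d => d % 4 = r ∧ R d) (N / m ^ 2) : ℤ) := by
  classical
  set S := (Finset.Icc (-(N : ℤ)) (N : ℤ)).filter (fun d => d % 4 = r ∧ R d) with hS
  have h1 : (cnt (fun d => d % 4 = r ∧ Squarefree d ∧ R d) N : ℤ)
      = ∑ d ∈ S, (if Squarefree d then (1 : ℤ) else 0) := by
    unfold cnt
    rw [Finset.sum_boole, hS, Finset.filter_filter]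
    congr 2
    apply Finset.filter_congr
    intro d _
    tauto
  have h2 : ∀ d ∈ S, (if Squarefree d then (1 : ℤ) else 0)
      = ∑ m ∈ Finset.Icc 1 N, (if (m : ℤ) ^ 2 ∣ d then moebius m else 0) := by
    intro d hd
    rw [hS, Finset.mem_filter, Finset.mem_Icc] at hd
    obtain ⟨⟨h1, h2⟩, h3, _⟩ := hd
    have hd0 : d ≠ 0 := by
      rintro rfl
      rcases hr with h | h | h <;> omega
    have hK : d.natAbs ≤ N := by omega
    rw [← sum_moebius_sq_dvd_int d N hd0 hK, Finset.sum_filter]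
  rw [h1, Finset.sum_congr rfl h2, Finset.sum_comm]
  apply Finset.sum_congr rfl
  intro m _
  rw [← Finset.sum_filter, Finset.sum_const, nsmul_eq_mul, mul_comm]
  by_cases hm : Odd m
  · rw [hS, card_filter_odd_sq_dvd R hR r hr N m hm]
    simp [muOdd, hm]
  · rw [hS, filter_even_sq_dvd_eq_empty R r hr N m hm]
    simp [muOdd, hm]

end sieve

end Vale.Agent.Lib.P004
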