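import Vale.Agent.Lib.P004.Assembly

namespace Vale.Agent.Lib.P004

open ArithmeticFunction Filter Topology

open Classical

/-- The purely real-arithmetic core of the transfer argument. -/
lemma final_arith (ε δ X Y a1 a2 a3 q1 q2 q3 num den : ℝ) (hε : 0 < ε)
    (hn1 : num ≤ a1 + a2 + a3) (hn2 : a1 + a2 + a3 ≤ num + 1)
    (hd1 : den ≤ q1 + q2 + q3) (hd2 : q1 + q2 + q3 ≤ den + 1)
    (hq2nn : 0 ≤ q2) (hq3nn : 0 ≤ q3) (hXr : 400 ≤ X) (hY : Y ≤ X)
    (hq1ge : X / 4 - Real.sqrt X - 1 / 2 ≤ q1)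
    (hbig : 32 * (1 + |δ|) < ε * X)
    (h1 : |a1 - δ * q1| ≤ ε / 32 * X)
    (h2 : |a2 - δ * q2| ≤ ε / 32 * Y)
    (h3 : |a3 - δ * q3| ≤ ε / 32 * Y) :
    |num / den - δ| < ε := by
  have hsqrt : Real.sqrt X ≤ X / 20 := by
    have h20 : (20 : ℝ) ≤ Real.sqrt X := Real.le_sqrt_of_sq_le (by norm_num; linarith)
    have hmul : Real.sqrt X * Real.sqrt X = X := Real.mul_self_sqrt (by linarith)
    have := mul_le_mul_of_nonneg_right h20 (Real.sqrt_nonneg X)
    linarith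
  have hden_ge' : X / 8 ≤ den := by linarith
  have hden_pos : 0 < den := by linarith
  have hu1 := abs_le.mp h1
  have hu2 := abs_le.mp h2
  have hu3 := abs_le.mp h3
  have hεY : ε / 32 * Y ≤ ε / 32 * X := mul_le_mul_of_nonneg_left hY (by positivity)
  obtain ⟨t, ht⟩ : ∃ t : ℝ, t = q1 + q2 + q3 - den := ⟨_, rfl⟩
  have ht0 : 0 ≤ t := by linarith
  have ht1 : t ≤ 1 := by linarith
  have hδt : |δ * t| ≤ |δ| := by
    rw [abs_mul, abs_of_nonneg ht0]
    exact mul_le_of_le_one_right (abs_nonneg δ) ht1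
  have hδt' := abs_le.mp hδt
  have hexp : δ * den = δ * q1 + δ * q2 + δ * q3 - δ * t := by
    rw [ht]; ring
  have habs : |num - δ * den| ≤ 3 * (ε / 32 * X) + 1 + |δ| := by
    rw [abs_le]
    constructor <;> linarith [hu1.1, hu1.2, hu2.1, hu2.2, hu3.1, hu3.2, hδt'.1, hδt'.2]
  have hrew : num / den - δ = (num - δ * den) / den := by
    field_simp
  rw [hrew, abs_div, abs_of_pos hden_pos, div_lt_iff₀ hden_pos]
  have hfin : 3 * (ε / 32 * X) + 1 + |δ| < ε * (X / 8) := by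
    have := abs_nonneg δ
    linarith
  have hmono : ε * (X / 8) ≤ ε * den := mul_le_mul_of_nonneg_left hden_ge' hε.le
  linarith

/-- Transfer from the ordering of all integers (in the classes `1, 2, 3 mod 4`) to the ordering
of fundamental discriminants, for a square-invariant property. -/
theorem transfer (P : ℤ → Prop) (δ : ℝ)
    (hP : ∀ m d : ℤ, m ≠ 0 → d ≠ 0 → (P (m ^ 2 * d) ↔ P d))
    (h : ∀ r : ℤ, r = 1 ∨ r = 2 ∨ r = 3 →
      Tendsto (fun N : ℕ => (cnt (fun d => d % 4 = r ∧ P d) N : ℝ)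
        / (cnt (fun d => d % 4 = r) N : ℝ)) atTop (𝓝 δ)) :
    Tendsto (propFD P) atTop (𝓝 δ) := by
  rw [Metric.tendsto_nhds]
  intro ε hε
  have hε'pos : 0 < ε / 32 := by positivity
  have e1 := err_bound P hP 1 (by norm_num) δ (h 1 (by norm_num)) (ε / 32) hε'pos
  have e2 := err_bound P hP 2 (by norm_num) δ (h 2 (by norm_num)) (ε / 32) hε'pos
  have e3 := err_bound P hP 3 (by norm_num) δ (h 3 (by norm_num)) (ε / 32) hε'pos
  have hdiv : Tendsto (fun X : ℕ => X / 4) atTop atTop :=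
    tendsto_atTop_atTop.mpr (fun b => ⟨4 * b, fun a ha => by omega⟩)
  have e2' := hdiv.eventually e2
  have e3' := hdiv.eventually e3
  filter_upwards [e1, e2', e3', eventually_ge_atTop 400,
    eventually_gt_atTop (Nat.ceil (32 * (1 + |δ|) / ε))] with X h1 h2 h3 hX400 hXbig
  obtain ⟨hnum_le, hnum_ge⟩ := card_fundDiscs_filter P hP X
  obtain ⟨hden_le, hden_ge⟩ := card_fundDiscs_filter (fun _ => True) (fun _ _ _ _ => Iff.rfl) X
  have hft : (fundDiscs X).filter (fun _ => True) = fundDiscs X := Finset.filter_true_of_mem (by simp)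
  rw [hft] at hden_le hden_ge
  have c1 : cnt (fun d => d % 4 = 1 ∧ Squarefree d ∧ True) X
      = cnt (fun d => d % 4 = 1 ∧ Squarefree d) X := cnt_congr (fun d => by simp) X
  have c2 : cnt (fun d => d % 4 = 2 ∧ Squarefree d ∧ True) (X / 4)
      = cnt (fun d => d % 4 = 2 ∧ Squarefree d) (X / 4) := cnt_congr (fun d => by simp) (X / 4)
  have c3 : cnt (fun d => d % 4 = 3 ∧ Squarefree d ∧ True) (X / 4)
      = cnt (fun d => d % 4 = 3 ∧ Squarefree d) (X / 4) := cnt_congr (fun d => by simp) (X / 4)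
  rw [c1, c2, c3] at hden_le hden_ge
  have hbig : 32 * (1 + |δ|) < ε * X := by
    have h0 := Nat.le_ceil (32 * (1 + |δ|) / ε)
    have h' : ((Nat.ceil (32 * (1 + |δ|) / ε) : ℕ) : ℝ) < X := by exact_mod_cast hXbig
    have h'' : 32 * (1 + |δ|) / ε < X := by linarith
    rw [div_lt_iff₀ hε] at h''
    linarith
  rw [Real.dist_eq]
  have hprop : propFD P X = (((fundDiscs X).filter P).card : ℝ) / ((fundDiscs X).card : ℝ) := rfl
  rw [hprop]
  exact final_arith ε δ X ((X / 4 : ℕ) : ℝ)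
    (cnt (fun d => d % 4 = 1 ∧ Squarefree d ∧ P d) X : ℝ)
    (cnt (fun d => d % 4 = 2 ∧ Squarefree d ∧ P d) (X / 4) : ℝ)
    (cnt (fun d => d % 4 = 3 ∧ Squarefree d ∧ P d) (X / 4) : ℝ)
    (cnt (fun d => d % 4 = 1 ∧ Squarefree d) X : ℝ)
    (cnt (fun d => d % 4 = 2 ∧ Squarefree d) (X / 4) : ℝ)
    (cnt (fun d => d % 4 = 3 ∧ Squarefree d) (X / 4) : ℝ)
    _ _ hε
    (by exact_mod_cast hnum_le) (by exact_mod_cast hnum_ge)
    (by exact_mod_cast hden_le) (by exact_mod_cast hden_ge)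
    (Nat.cast_nonneg _) (Nat.cast_nonneg _) (by exact_mod_cast hX400)
    (by exact_mod_cast Nat.div_le_self X 4)
    (cnt_squarefree_class_ge 1 (by norm_num) X)
    hbig h1 h2 h3

end Vale.Agent.Lib.P004
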